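import Claimed.Agent.R246.KD390.Dat

/-! Row 246, F2 (route Q): kernel check `chkX13 1` of the integer data `KD390.dat` (helper390) -/

set_option autoImplicit false

namespace Claimed.Agent.R246.KD390

theorem okX1 : dat.chkX13 1 = true := by decide +kernel

end Claimed.Agent.R246.KD390
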