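import Claimed.Agent.R246.KC.R13Final
import Claimed.Agent.R246.KD390.DataH
import Claimed.Agent.R246.KD390.DataV0
import Claimed.Agent.R246.KD390.DataV1

set_option autoImplicit false
set_option maxRecDepth 100000

namespace Claimed.Agent.R246.KD390

open Claimed.Agent.R246.KC

def dat : Raw where
  K := 5632
  fu := 10
  F := lF
  A := fun r => ([[], lA1, lA2, lA3, lA4, lA5, lA6, lA7, lA8, lA9, lA10] : List (List ℤ)).getD r []
  Cc := fun r => ([[1], lC1, lC2, lC3, lC4, lC5, lC6, lC7, lC8, lC9, lC10] : List (List ℤ)).getD r []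
  q := fun i ν => (if i = 0 then ([[], [], [], lq0_3, lq0_4, lq0_5, lq0_6, lq0_7, lq0_8, lq0_9, lq0_10, lq0_11, lq0_12, lq0_13] : List (List ℤ)) else [[], [], [], lq1_3, lq1_4, lq1_5, lq1_6, lq1_7, lq1_8, lq1_9, lq1_10, lq1_11, lq1_12, lq1_13]).getD ν []
  q' := fun i ν => (if i = 0 then ([[], [], [], lp0_3, lp0_4, lp0_5, lp0_6, lp0_7, lp0_8, lp0_9, lp0_10, lp0_11, lp0_12, lp0_13] : List (List ℤ)) else [[], [], [], lp1_3, lp1_4, lp1_5, lp1_6, lp1_7, lp1_8, lp1_9, lp1_10, lp1_11, lp1_12, lp1_13]).getD ν []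
  aoo := fun i ν => (if i = 0 then ([[], [], [], la0_3, la0_4, la0_5, la0_6, la0_7, la0_8, la0_9, la0_10, la0_11, la0_12, la0_13] : List (List ℤ)) else [[], [], [], la1_3, la1_4, la1_5, la1_6, la1_7, la1_8, la1_9, la1_10, la1_11, la1_12, la1_13]).getD ν []
  coo := fun i ν => (if i = 0 then ([[], [], [], lc0_3, lc0_4, lc0_5, lc0_6, lc0_7, lc0_8, lc0_9, lc0_10, lc0_11, lc0_12, lc0_13] : List (List ℤ)) else [[], [], [], lc1_3, lc1_4, lc1_5, lc1_6, lc1_7, lc1_8, lc1_9, lc1_10, lc1_11, lc1_12, lc1_13]).getD ν []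
  U := lU
  W := lW
  c := cc
  u0 := uu

end Claimed.Agent.R246.KD390
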