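import Claimed.Agent.R246.KD390.ChkX0
import Claimed.Agent.R246.KD390.ChkX1
import Claimed.Agent.R246.KD390.ChkV0
import Claimed.Agent.R246.KD390.ChkV1

/-! Row 246, F2 (route Q): the integer data `KD390.dat` pass all checks of `KC.Raw.Ok13` (helper390) -/

set_option autoImplicit false

namespace Claimed.Agent.R246.KD390

open Claimed.Agent.R246.KC

theorem okF : dat.chkF = true := by decide +kernel
theorem okZ : dat.chk0 = true := by decide +kernel
theorem okS : dat.chkSqf = true := by decide +kernel
theorem okR0 : dat.chkRoo13 0 = true := by decide +kernel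
theorem okR1 : dat.chkRoo13 1 = true := by decide +kernel
theorem okW : dat.chkW13 = true := by decide +kernel
theorem ok3 : dat.chk3 0 1 = true := by decide +kernel

theorem fin2_all {P : Fin 2 → Prop} (h0 : P 0) (h1 : P 1) : ∀ i, P i := by
  intro i
  fin_cases i
  · exact h0
  · exact h1

theorem ok13 : dat.Ok13 where
  hF := okF
  h0 := okZ
  hSqf := okS
  hRoo := fin2_all okR0 okR1
  hX := fin2_all okX0 okX1
  hV := fin2_all okV0 okV1
  hW := okW
  h3 := ⟨0, 1, ok3⟩

end Claimed.Agent.R246.KD390
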